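import Mathlib

namespace Vale.Agent.Results.P052.FewPoints

/-- `Splits S k`: the set `S` is the union of at most `k` subsets, each of diameter strictly
smaller than the diameter of `S`. -/
def Splits {E : Type*} [PseudoMetricSpace E] (S : Set E) (k : ℕ) : Prop :=
  ∃ parts : Finset (Set E), parts.card ≤ k ∧ (∀ P ∈ parts, P ⊆ S) ∧ (S ⊆ ⋃ P ∈ parts, P) ∧
    ∀ P ∈ parts, Metric.diam P < Metric.diam S

/-- No `d + 2` points of `ℝ^d` are pairwise at the same positive distance. -/
theorem no_equilateral (d : ℕ) (p : Fin (d + 2) → EuclideanSpace ℝ (Fin d)) (D : ℝ) (hD : 0 < D)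
    (h : ∀ i j, i ≠ j → dist (p i) (p j) = D) : False := by
  let v : Fin (d + 1) → EuclideanSpace ℝ (Fin d) := fun i => p i.succ - p 0
  have hnorm : ∀ i, ‖v i‖ = D := by
    intro i
    have := h i.succ 0 (Fin.succ_ne_zero i)
    rwa [dist_eq_norm] at this
  have hsub : ∀ i j, i ≠ j → ‖v i - v j‖ = D := by
    intro i j hij
    have := h i.succ j.succ (fun hh => hij (Fin.succ_injective _ hh))
    rw [dist_eq_norm] at this
    have e : v i - v j = p i.succ - p j.succ := by simp [v]
    rw [e]
    exact this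
  have hinner : ∀ i j, i ≠ j → inner ℝ (v i) (v j) = D ^ 2 / 2 := by
    intro i j hij
    have h1 := norm_sub_sq_real (v i) (v j)
    rw [hsub i j hij, hnorm i, hnorm j] at h1
    linarith
  have hself : ∀ i, inner ℝ (v i) (v i) = D ^ 2 := by
    intro i
    rw [real_inner_self_eq_norm_sq, hnorm i]
  have hli : LinearIndependent ℝ v := by
    rw [Fintype.linearIndependent_iff]
    intro g hg
    have key : ∀ j, g j = - ∑ i, g i := by
      intro j
      have h0 : inner ℝ (∑ i, g i • v i) (v j) = 0 := by rw [hg, inner_zero_left]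
      rw [sum_inner] at h0
      have h1 : ∀ i, inner ℝ (g i • v i) (v j) =
          D ^ 2 / 2 * g i + (if i = j then D ^ 2 / 2 * g j else 0) := by
        intro i
        rw [real_inner_smul_left]
        by_cases hij : i = j
        · subst hij
          rw [hself i, if_pos rfl]
          ring
        · rw [hinner i j hij, if_neg hij]
          ring
      simp_rw [h1] at h0
      rw [Finset.sum_add_distrib, ← Finset.mul_sum, Finset.sum_ite_eq' Finset.univ j] at h0
      simp only [Finset.mem_univ, if_true] at h0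
      have hD2 : D ^ 2 / 2 ≠ 0 := by positivity
      have h3 : D ^ 2 / 2 * (∑ i, g i + g j) = 0 := by linarith
      have := (mul_eq_zero.mp h3).resolve_left hD2
      linarith
    have hs : ∑ i, g i = 0 := by
      have h4 : ∑ j, g j = ∑ _j : Fin (d + 1), (- ∑ i, g i) :=
        Finset.sum_congr rfl (fun j _ => key j)
      rw [Finset.sum_const, Finset.card_univ, Fintype.card_fin, nsmul_eq_mul] at h4
      have hd : (0 : ℝ) ≤ d := Nat.cast_nonneg d
      push_cast at h4
      nlinarith
    intro j
    rw [key j, hs, neg_zero]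
  have hcard := hli.fintype_card_le_finrank
  simp at hcard

/-- Among `d + 2` points of `ℝ^d` with pairwise distances at most `D`, two different ones are
at distance less than `D`. -/
theorem exists_short_pair (d : ℕ) (T : Finset (EuclideanSpace ℝ (Fin d))) (hT : d + 2 ≤ T.card)
    (D : ℝ) (hD : ∀ x ∈ T, ∀ y ∈ T, dist x y ≤ D) :
    ∃ x ∈ T, ∃ y ∈ T, x ≠ y ∧ dist x y < D := by
  classical
  by_contra hcon
  push Not at hcon
  obtain ⟨T', hT'sub, hT'card⟩ := Finset.exists_subset_card_eq hT
  let e := (Finset.equivFinOfCardEq hT'card).symm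
  have hp : ∀ i j, i ≠ j →
      dist (e i : EuclideanSpace ℝ (Fin d)) (e j : EuclideanSpace ℝ (Fin d)) = D := by
    intro i j hij
    have hne : (e i : EuclideanSpace ℝ (Fin d)) ≠ e j :=
      fun hh => hij (e.injective (Subtype.ext hh))
    exact le_antisymm (hD _ (hT'sub (e i).2) _ (hT'sub (e j).2))
      (hcon _ (hT'sub (e i).2) _ (hT'sub (e j).2) hne)
  have h01 : (0 : Fin (d + 2)) ≠ 1 := by
    intro hh
    have := congrArg Fin.val hh
    simp at this
  have hDpos : 0 < D := by
    rw [← hp 0 1 h01]
    exact dist_pos.mpr (fun hh => h01 (e.injective (Subtype.ext hh)))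
  exact no_equilateral d (fun i => (e i : EuclideanSpace ℝ (Fin d))) D hDpos hp

/-- Special parts of small diameter plus singletons. -/
theorem splits_of_parts {E : Type*} [MetricSpace E] [DecidableEq E] (S : Finset E)
    (hpos : 0 < Metric.diam (S : Set E)) (Q : Finset (Finset E))
    (hsub : ∀ q ∈ Q, q ⊆ S)
    (hdiam : ∀ q ∈ Q, Metric.diam (q : Set E) < Metric.diam (S : Set E)) (k : ℕ)
    (hcard : Q.card + (S \ Q.biUnion id).card ≤ k) : Splits (S : Set E) k := by
  classical
  refine ⟨Q.image (fun q : Finset E => (q : Set E)) ∪ (S \ Q.biUnion id).image (fun z => ({z} : Set E)),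
    ?_, ?_, ?_, ?_⟩
  · calc _ ≤ (Q.image (fun q : Finset E => (q : Set E))).card +
          ((S \ Q.biUnion id).image (fun z => ({z} : Set E))).card := Finset.card_union_le _ _
      _ ≤ Q.card + (S \ Q.biUnion id).card :=
          Nat.add_le_add Finset.card_image_le Finset.card_image_le
      _ ≤ k := hcard
  · intro P hP
    rcases Finset.mem_union.mp hP with h | h
    · obtain ⟨q, hq, rfl⟩ := Finset.mem_image.mp h
      exact Finset.coe_subset.mpr (hsub q hq)
    · obtain ⟨z, hz, rfl⟩ := Finset.mem_image.mp h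
      rw [Set.singleton_subset_iff]
      exact Finset.mem_coe.mpr (Finset.mem_sdiff.mp hz).1
  · intro x hx
    have hxS : x ∈ S := Finset.mem_coe.mp hx
    by_cases hxQ : x ∈ Q.biUnion id
    · obtain ⟨q, hq, hxq⟩ := Finset.mem_biUnion.mp hxQ
      refine Set.mem_biUnion (x := (q : Set E)) ?_ ?_
      · exact Finset.mem_coe.mpr (Finset.mem_union_left _ (Finset.mem_image_of_mem _ hq))
      · exact Finset.mem_coe.mpr hxq
    · refine Set.mem_biUnion (x := ({x} : Set E)) ?_ rfl
      exact Finset.mem_coe.mpr (Finset.mem_union_right _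
        (Finset.mem_image_of_mem _ (Finset.mem_sdiff.mpr ⟨hxS, hxQ⟩)))
  · intro P hP
    rcases Finset.mem_union.mp hP with h | h
    · obtain ⟨q, hq, rfl⟩ := Finset.mem_image.mp h
      exact hdiam q hq
    · obtain ⟨z, hz, rfl⟩ := Finset.mem_image.mp h
      rw [Metric.diam_singleton]
      exact hpos

theorem split_pair {E : Type*} [MetricSpace E] [DecidableEq E] (S : Finset E) (k : ℕ)
    (x y : E) (hx : x ∈ S) (hy : y ∈ S) (hxy : x ≠ y)
    (hd : dist x y < Metric.diam (S : Set E)) (hcard : S.card ≤ k + 1) :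
    Splits (S : Set E) k := by
  classical
  have hpos : 0 < Metric.diam (S : Set E) := lt_of_le_of_lt dist_nonneg hd
  have hsub : ({x, y} : Finset E) ⊆ S := by
    intro w hw
    simp only [Finset.mem_insert, Finset.mem_singleton] at hw
    rcases hw with rfl | rfl <;> assumption
  refine splits_of_parts S hpos {({x, y} : Finset E)} ?_ ?_ k ?_
  · intro q hq
    rw [Finset.mem_singleton] at hq
    subst hq
    exact hsub
  · intro q hq
    rw [Finset.mem_singleton] at hq
    subst hq
    rw [Finset.coe_pair, Metric.diam_pair]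
    exact hd
  · rw [Finset.card_singleton, Finset.singleton_biUnion]
    have h1 := Finset.card_sdiff_add_card_eq_card hsub
    have h2 : ({x, y} : Finset E).card = 2 := Finset.card_pair hxy
    simp only [id] at *
    omega

theorem split_two_pairs {E : Type*} [MetricSpace E] [DecidableEq E] (S : Finset E) (k : ℕ)
    (x y a b : E) (hx : x ∈ S) (hy : y ∈ S) (ha : a ∈ S) (hb : b ∈ S)
    (hxy : x ≠ y) (hab : a ≠ b) (hxa : x ≠ a) (hxb : x ≠ b) (hya : y ≠ a) (hyb : y ≠ b)
    (hd1 : dist x y < Metric.diam (S : Set E)) (hd2 : dist a b < Metric.diam (S : Set E))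
    (hcard : S.card ≤ k + 2) : Splits (S : Set E) k := by
  classical
  have hpos : 0 < Metric.diam (S : Set E) := lt_of_le_of_lt dist_nonneg hd1
  have hsub1 : ({x, y} : Finset E) ⊆ S := by
    intro w hw
    simp only [Finset.mem_insert, Finset.mem_singleton] at hw
    rcases hw with rfl | rfl <;> assumption
  have hsub2 : ({a, b} : Finset E) ⊆ S := by
    intro w hw
    simp only [Finset.mem_insert, Finset.mem_singleton] at hw
    rcases hw with rfl | rfl <;> assumption
  refine splits_of_parts S hpos {({x, y} : Finset E), ({a, b} : Finset E)} ?_ ?_ k ?_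
  · intro q hq
    rcases Finset.mem_insert.mp hq with rfl | hq
    · exact hsub1
    · rw [Finset.mem_singleton] at hq
      subst hq
      exact hsub2
  · intro q hq
    rcases Finset.mem_insert.mp hq with rfl | hq
    · rw [Finset.coe_pair, Metric.diam_pair]
      exact hd1
    · rw [Finset.mem_singleton] at hq
      subst hq
      rw [Finset.coe_pair, Metric.diam_pair]
      exact hd2
  · have hQ : ({({x, y} : Finset E), ({a, b} : Finset E)} : Finset (Finset E)).card ≤ 2 :=
      Finset.card_le_two
    have hbu : ({({x, y} : Finset E), ({a, b} : Finset E)} : Finset (Finset E)).biUnion id =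
        ({x, y} : Finset E) ∪ {a, b} := by
      rw [Finset.biUnion_insert, Finset.singleton_biUnion]
      rfl
    rw [hbu]
    have hdisj : Disjoint ({x, y} : Finset E) {a, b} := by
      rw [Finset.disjoint_left]
      intro z hz hz'
      simp only [Finset.mem_insert, Finset.mem_singleton] at hz hz'
      rcases hz with rfl | rfl <;> rcases hz' with h | h
      · exact hxa h
      · exact hxb h
      · exact hya h
      · exact hyb h
    have hu : (({x, y} : Finset E) ∪ {a, b}).card = 4 := by
      rw [Finset.card_union_of_disjoint hdisj, Finset.card_pair hxy, Finset.card_pair hab]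
    have hsub : ({x, y} : Finset E) ∪ {a, b} ⊆ S := Finset.union_subset hsub1 hsub2
    have h1 := Finset.card_sdiff_add_card_eq_card hsub
    omega

theorem split_triple {E : Type*} [MetricSpace E] [DecidableEq E] (S : Finset E) (k : ℕ)
    (x y z : E) (hx : x ∈ S) (hy : y ∈ S) (hz : z ∈ S)
    (hxy : x ≠ y) (hxz : x ≠ z) (hyz : y ≠ z)
    (hd1 : dist x y < Metric.diam (S : Set E)) (hd2 : dist x z < Metric.diam (S : Set E))
    (hd3 : dist y z < Metric.diam (S : Set E)) (hcard : S.card ≤ k + 2) :
    Splits (S : Set E) k := by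
  classical
  have hpos : 0 < Metric.diam (S : Set E) := lt_of_le_of_lt dist_nonneg hd1
  have hsub : ({x, y, z} : Finset E) ⊆ S := by
    intro w hw
    simp only [Finset.mem_insert, Finset.mem_singleton] at hw
    rcases hw with rfl | rfl | rfl <;> assumption
  refine splits_of_parts S hpos {({x, y, z} : Finset E)} ?_ ?_ k ?_
  · intro q hq
    rw [Finset.mem_singleton] at hq
    subst hq
    exact hsub
  · intro q hq
    rw [Finset.mem_singleton] at hq
    subst hq
    rw [Finset.coe_insert, Finset.coe_pair, Metric.diam_triple]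
    exact max_lt (max_lt hd1 hd2) hd3
  · rw [Finset.card_singleton, Finset.singleton_biUnion]
    have h1 := Finset.card_sdiff_add_card_eq_card hsub
    have h2 : ({x, y, z} : Finset E).card = 3 :=
      Finset.card_eq_three.mpr ⟨x, y, z, hxy, hxz, hyz, rfl⟩
    simp only [id] at *
    omega

/-- A finite set `S` of at most `k + 2` points of `ℝ^d`, where `k ≥ d + 1`, is the union of at
most `k` subsets of smaller diameter. -/
theorem few_points (d k : ℕ) (hk : d + 1 ≤ k) (S : Finset (EuclideanSpace ℝ (Fin d)))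
    (hcard : S.card ≤ k + 2)
    (hpos : 0 < Metric.diam (S : Set (EuclideanSpace ℝ (Fin d)))) :
    Splits (S : Set (EuclideanSpace ℝ (Fin d))) k := by
  classical
  have hle : ∀ x ∈ S, ∀ y ∈ S,
      dist x y ≤ Metric.diam (S : Set (EuclideanSpace ℝ (Fin d))) :=
    fun x hx y hy => Metric.dist_le_diam_of_mem S.finite_toSet.isBounded
      (Finset.mem_coe.mpr hx) (Finset.mem_coe.mpr hy)
  by_cases h1 : S.card ≤ k
  · refine splits_of_parts S hpos ∅ (by simp) (by simp) k ?_
    simpa using h1
  obtain ⟨x, hx, y, hy, hxy, hdxy⟩ := exists_short_pair d S (by omega) _ hle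
  by_cases h2 : S.card ≤ k + 1
  · exact split_pair S k x y hx hy hxy hdxy h2
  have hle' : ∀ u : EuclideanSpace ℝ (Fin d), ∀ p ∈ S.erase u, ∀ q ∈ S.erase u,
      dist p q ≤ Metric.diam (S : Set (EuclideanSpace ℝ (Fin d))) :=
    fun u p hp q hq => hle p (Finset.mem_of_mem_erase hp) q (Finset.mem_of_mem_erase hq)
  obtain ⟨a, ha, b, hb, hab, hdab⟩ := exists_short_pair d (S.erase x)
    (by rw [Finset.card_erase_of_mem hx]; omega) _ (hle' x)
  obtain ⟨p, hp, q, hq, hpq, hdpq⟩ := exists_short_pair d (S.erase y)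
    (by rw [Finset.card_erase_of_mem hy]; omega) _ (hle' y)
  have hax : a ≠ x := Finset.ne_of_mem_erase ha
  have hbx : b ≠ x := Finset.ne_of_mem_erase hb
  have hpy : p ≠ y := Finset.ne_of_mem_erase hp
  have hqy : q ≠ y := Finset.ne_of_mem_erase hq
  have haS : a ∈ S := Finset.mem_of_mem_erase ha
  have hbS : b ∈ S := Finset.mem_of_mem_erase hb
  have hpS : p ∈ S := Finset.mem_of_mem_erase hp
  have hqS : q ∈ S := Finset.mem_of_mem_erase hq
  have step1 : (∃ b', b' ∈ S ∧ b' ≠ x ∧ b' ≠ y ∧
      dist y b' < Metric.diam (S : Set (EuclideanSpace ℝ (Fin d)))) ∨ (y ≠ a ∧ y ≠ b) := by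
    by_cases hya : y = a
    · refine Or.inl ⟨b, hbS, hbx, ?_, ?_⟩
      · rw [hya]
        exact hab.symm
      · rw [hya]
        exact hdab
    · by_cases hyb : y = b
      · refine Or.inl ⟨a, haS, hax, ?_, ?_⟩
        · rw [hyb]
          exact hab
        · rw [hyb, dist_comm]
          exact hdab
      · exact Or.inr ⟨hya, hyb⟩
  rcases step1 with ⟨b', hb'S, hb'x, hb'y, hdyb'⟩ | ⟨hya, hyb⟩
  swap
  · exact split_two_pairs S k x y a b hx hy haS hbS hxy hab (Ne.symm hax) (Ne.symm hbx)
      hya hyb hdxy hdab hcard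
  have step2 : (∃ q', q' ∈ S ∧ q' ≠ y ∧ q' ≠ x ∧
      dist x q' < Metric.diam (S : Set (EuclideanSpace ℝ (Fin d)))) ∨ (x ≠ p ∧ x ≠ q) := by
    by_cases hxp : x = p
    · refine Or.inl ⟨q, hqS, hqy, ?_, ?_⟩
      · rw [hxp]
        exact hpq.symm
      · rw [hxp]
        exact hdpq
    · by_cases hxq : x = q
      · refine Or.inl ⟨p, hpS, hpy, ?_, ?_⟩
        · rw [hxq]
          exact hpq
        · rw [hxq, dist_comm]
          exact hdpq
      · exact Or.inr ⟨hxp, hxq⟩
  rcases step2 with ⟨q', hq'S, hq'y, hq'x, hdxq'⟩ | ⟨hxp, hxq⟩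
  swap
  · exact split_two_pairs S k x y p q hx hy hpS hqS hxy hpq hxp hxq (Ne.symm hpy) (Ne.symm hqy)
      hdxy hdpq hcard
  by_cases hqb : q' = b'
  · subst hqb
    exact split_triple S k x y q' hx hy hq'S hxy (Ne.symm hq'x) (Ne.symm hq'y) hdxy hdxq' hdyb'
      hcard
  · exact split_two_pairs S k y b' x q' hy hb'S hx hq'S (Ne.symm hb'y) (Ne.symm hq'x)
      (Ne.symm hxy) (Ne.symm hq'y) hb'x (Ne.symm hqb) hdyb' hdxq' hcard

/-- **Borsuk's conjecture for sets of at most d + 3 points.** (1) Every set of at most `d + 3`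
points of `ℝ^d` with positive diameter is the union of at most `d + 1` subsets of smaller
diameter, in every dimension `d`. (2) More generally a set of at most `k + 2` points of `ℝ^d`,
`k ≥ d + 1`, is the union of at most `k` subsets of smaller diameter. -/
theorem result :
    (∀ (d : ℕ) (S : Finset (EuclideanSpace ℝ (Fin d))), S.card ≤ d + 3 →
      0 < Metric.diam (S : Set (EuclideanSpace ℝ (Fin d))) →
      Splits (S : Set (EuclideanSpace ℝ (Fin d))) (d + 1)) ∧
    (∀ (d k : ℕ) (S : Finset (EuclideanSpace ℝ (Fin d))), d + 1 ≤ k → S.card ≤ k + 2 →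
      0 < Metric.diam (S : Set (EuclideanSpace ℝ (Fin d))) →
      Splits (S : Set (EuclideanSpace ℝ (Fin d))) k) :=
  ⟨fun d S hcard hpos => few_points d (d + 1) le_rfl S hcard hpos,
    fun d k S hk hcard hpos => few_points d k hk S hcard hpos⟩

end Vale.Agent.Results.P052.FewPoints
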