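import Mathlib
import Vale.Agent.Results.P052.FewPoints

namespace Vale.Agent.Results.P052.FewPointsFour

open Vale.Agent.Results.P052.FewPoints

/-- In `ℝ^d` there are no `d + 2` different points whose pairwise distances all equal `D`,
except possibly for one pair at distance at most `D`: two different points `a`, `b` at distance
`D` from `d` points that are pairwise at distance `D` are further apart than `D` (they are mirror
images in the hyperplane through the `d` points). -/
theorem no_almost_equilateral (d : ℕ) (p : Fin d → EuclideanSpace ℝ (Fin d))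
    (a b : EuclideanSpace ℝ (Fin d)) (D : ℝ) (hD : 0 < D)
    (hp : ∀ i j, i ≠ j → dist (p i) (p j) = D) (ha : ∀ i, dist (p i) a = D)
    (hb : ∀ i, dist (p i) b = D) (hab : a ≠ b) (hle : dist a b ≤ D) : False := by
  have hδpos : 0 < dist a b := dist_pos.mpr hab
  have hn : ∀ i, ‖p i - a‖ = D := fun i => by rw [← dist_eq_norm]; exact ha i
  have hnb : ‖b - a‖ = dist a b := by rw [← dist_eq_norm, dist_comm]
  have hin : ∀ i j, i ≠ j → inner ℝ (p i - a) (p j - a) = D ^ 2 / 2 := by
    intro i j hij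
    have h1 := norm_sub_sq_real (p i - a) (p j - a)
    have e : (p i - a) - (p j - a) = p i - p j := by abel
    rw [e, ← dist_eq_norm, hp i j hij, hn i, hn j] at h1
    linarith
  have hself : ∀ i, inner ℝ (p i - a) (p i - a) = D ^ 2 := fun i => by
    rw [real_inner_self_eq_norm_sq, hn i]
  have hinb : ∀ i, inner ℝ (p i - a) (b - a) = dist a b ^ 2 / 2 := by
    intro i
    have h1 := norm_sub_sq_real (p i - a) (b - a)
    have e : (p i - a) - (b - a) = p i - b := by abel
    rw [e, ← dist_eq_norm, hb i, hn i, hnb] at h1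
    linarith
  have hbb : inner ℝ (b - a) (b - a) = dist a b ^ 2 := by
    rw [real_inner_self_eq_norm_sq, hnb]
  let w : Option (Fin d) → EuclideanSpace ℝ (Fin d) := fun o => Option.elim o (b - a) (fun i => p i - a)
  have hli : LinearIndependent ℝ w := by
    rw [Fintype.linearIndependent_iff]
    intro g hg
    rw [Fintype.sum_option] at hg
    have hg' : g none • (b - a) + ∑ i, g (some i) • (p i - a) = 0 := hg
    have Ej : ∀ j, D ^ 2 * (g (some j) + ∑ i, g (some i)) + g none * dist a b ^ 2 = 0 := by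
      intro j
      have h0 : inner ℝ (g none • (b - a) + ∑ i, g (some i) • (p i - a)) (p j - a) = 0 := by
        rw [hg', inner_zero_left]
      rw [inner_add_left, sum_inner, real_inner_smul_left, real_inner_comm (p j - a) (b - a),
        hinb j] at h0
      have h1 : ∀ i, inner ℝ (g (some i) • (p i - a)) (p j - a) =
          D ^ 2 / 2 * g (some i) + (if i = j then D ^ 2 / 2 * g (some j) else 0) := by
        intro i
        rw [real_inner_smul_left]
        by_cases hij : i = j
        · subst hij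
          rw [hself i, if_pos rfl]
          ring
        · rw [hin i j hij, if_neg hij]
          ring
      simp_rw [h1] at h0
      rw [Finset.sum_add_distrib, ← Finset.mul_sum, Finset.sum_ite_eq' Finset.univ j] at h0
      simp only [Finset.mem_univ, if_true] at h0
      linarith
    have Eb : dist a b ^ 2 * (∑ i, g (some i) + 2 * g none) = 0 := by
      have h0 : inner ℝ (g none • (b - a) + ∑ i, g (some i) • (p i - a)) (b - a) = 0 := by
        rw [hg', inner_zero_left]
      rw [inner_add_left, sum_inner, real_inner_smul_left, hbb] at h0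
      have h1 : ∀ i, inner ℝ (g (some i) • (p i - a)) (b - a) =
          dist a b ^ 2 / 2 * g (some i) := by
        intro i
        rw [real_inner_smul_left, hinb i]
        ring
      simp_rw [h1] at h0
      rw [← Finset.mul_sum] at h0
      linarith
    have hsb : ∑ i, g (some i) + 2 * g none = 0 :=
      (mul_eq_zero.mp Eb).resolve_left (by positivity)
    have hsum : D ^ 2 * ((1 + (d : ℝ)) * ∑ i, g (some i)) + d * (g none * dist a b ^ 2) = 0 := by
      have h5 : ∑ j : Fin d, (D ^ 2 * (g (some j) + ∑ i, g (some i)) + g none * dist a b ^ 2)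
          = 0 := Finset.sum_eq_zero (fun j _ => Ej j)
      rw [Finset.sum_add_distrib, ← Finset.mul_sum, Finset.sum_add_distrib, Finset.sum_const,
        Finset.sum_const, Finset.card_univ, Fintype.card_fin] at h5
      simp only [nsmul_eq_mul] at h5
      linarith
    have hs : ∑ i, g (some i) = 0 := by
      have hgn : g none = - (∑ i, g (some i)) / 2 := by linarith
      rw [hgn] at hsum
      have hd : (0 : ℝ) ≤ d := Nat.cast_nonneg d
      have hδ2 : dist a b ^ 2 ≤ D ^ 2 := by nlinarith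
      have hD2 : 0 < D ^ 2 := by positivity
      have hpos : 0 < 2 * D ^ 2 * (1 + (d : ℝ)) - d * dist a b ^ 2 := by nlinarith
      have h2 : (∑ i, g (some i)) * (2 * D ^ 2 * (1 + (d : ℝ)) - d * dist a b ^ 2) = 0 := by
        linear_combination 2 * hsum
      exact (mul_eq_zero.mp h2).resolve_right (ne_of_gt hpos)
    have hgn : g none = 0 := by linarith
    intro o
    cases o with
    | none => exact hgn
    | some j =>
      have h6 := Ej j
      rw [hs, hgn] at h6
      have hD2 : D ^ 2 ≠ 0 := by positivity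
      have h3 : D ^ 2 * g (some j) = 0 := by linarith
      exact (mul_eq_zero.mp h3).resolve_left hD2
  have hcard := hli.fintype_card_le_finrank
  simp at hcard

/-- Among `d + 2` points of `ℝ^d` with pairwise distances at most `D`, besides a given pair
there is another pair of different points at distance less than `D`. -/
theorem exists_other_short_pair (d : ℕ) (T : Finset (EuclideanSpace ℝ (Fin d)))
    (hT : d + 2 ≤ T.card) (D : ℝ) (hD : ∀ x ∈ T, ∀ y ∈ T, dist x y ≤ D)
    (x y : EuclideanSpace ℝ (Fin d)) (hx : x ∈ T) (hy : y ∈ T) (hxy : x ≠ y) :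
    ∃ u ∈ T, ∃ v ∈ T, u ≠ v ∧ dist u v < D ∧ ¬ (u = x ∧ v = y) ∧ ¬ (u = y ∧ v = x) := by
  classical
  by_contra hcon
  have key : ∀ u ∈ T, ∀ v ∈ T, u ≠ v → ¬ (u = x ∧ v = y) → ¬ (u = y ∧ v = x) →
      dist u v = D := by
    intro u hu v hv huv h1 h2
    by_contra hne
    exact hcon ⟨u, hu, v, hv, huv, lt_of_le_of_ne (hD u hu v hv) hne, h1, h2⟩
  have hpair : ({x, y} : Finset (EuclideanSpace ℝ (Fin d))) ⊆ T := by
    intro w hw
    simp only [Finset.mem_insert, Finset.mem_singleton] at hw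
    rcases hw with rfl | rfl <;> assumption
  have hpc : ({x, y} : Finset (EuclideanSpace ℝ (Fin d))).card = 2 := Finset.card_pair hxy
  obtain ⟨T', hs1, hs2, hc'⟩ :=
    Finset.exists_subsuperset_card_eq hpair (by rw [hpc]; omega) hT
  have hc'' : (T' \ {x, y}).card = d := by
    have := Finset.card_sdiff_add_card_eq_card hs1
    omega
  let e := (Finset.equivFinOfCardEq hc'').symm
  have hmem : ∀ i, (e i : EuclideanSpace ℝ (Fin d)) ∈ T ∧
      (e i : EuclideanSpace ℝ (Fin d)) ≠ x ∧ (e i : EuclideanSpace ℝ (Fin d)) ≠ y := by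
    intro i
    have h := Finset.mem_sdiff.mp (e i).2
    have h2 := h.2
    simp only [Finset.mem_insert, Finset.mem_singleton, not_or] at h2
    exact ⟨hs2 h.1, h2.1, h2.2⟩
  have hDpos : 0 < D := lt_of_lt_of_le (dist_pos.mpr hxy) (hD x hx y hy)
  refine no_almost_equilateral d (fun i => (e i : EuclideanSpace ℝ (Fin d))) x y D hDpos
    ?_ ?_ ?_ hxy (hD x hx y hy)
  · intro i j hij
    exact key _ (hmem i).1 _ (hmem j).1 (fun hh => hij (e.injective (Subtype.ext hh)))
      (fun h => (hmem i).2.1 h.1) (fun h => (hmem i).2.2 h.1)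
  · intro i
    exact key _ (hmem i).1 x hx (hmem i).2.1 (fun h => (hmem i).2.1 h.1)
      (fun h => (hmem i).2.2 h.1)
  · intro i
    exact key _ (hmem i).1 y hy (hmem i).2.2 (fun h => (hmem i).2.1 h.1)
      (fun h => (hmem i).2.2 h.1)

/-- `Short S u v`: `u`, `v` are different points of `S` at distance less than the diameter. -/
def Short {E : Type*} [MetricSpace E] (S : Finset E) (u v : E) : Prop :=
  u ∈ S ∧ v ∈ S ∧ u ≠ v ∧ dist u v < Metric.diam (S : Set E)

theorem short_symm {E : Type*} [MetricSpace E] {S : Finset E} {u v : E} (h : Short S u v) :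
    Short S v u :=
  ⟨h.2.1, h.1, h.2.2.1.symm, by rw [dist_comm]; exact h.2.2.2⟩

theorem three_pairs {E : Type*} [MetricSpace E] [DecidableEq E] (S : Finset E) (k : ℕ)
    (x1 y1 x2 y2 x3 y3 : E) (s1 : Short S x1 y1) (s2 : Short S x2 y2) (s3 : Short S x3 y3)
    (c12 : x1 ≠ x2 ∧ x1 ≠ y2 ∧ y1 ≠ x2 ∧ y1 ≠ y2)
    (c13 : x1 ≠ x3 ∧ x1 ≠ y3 ∧ y1 ≠ x3 ∧ y1 ≠ y3)
    (c23 : x2 ≠ x3 ∧ x2 ≠ y3 ∧ y2 ≠ x3 ∧ y2 ≠ y3)
    (hcard : S.card ≤ k + 3) : Splits (S : Set E) k := by
  classical
  have hpos : 0 < Metric.diam (S : Set E) := lt_of_le_of_lt dist_nonneg s1.2.2.2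
  have sub : ∀ u v : E, Short S u v → ({u, v} : Finset E) ⊆ S := by
    intro u v h w hw
    simp only [Finset.mem_insert, Finset.mem_singleton] at hw
    rcases hw with rfl | rfl
    · exact h.1
    · exact h.2.1
  have disj : ∀ u v a b : E, (u ≠ a ∧ u ≠ b ∧ v ≠ a ∧ v ≠ b) →
      Disjoint ({u, v} : Finset E) {a, b} := by
    intro u v a b h
    rw [Finset.disjoint_left]
    intro z hz hz'
    simp only [Finset.mem_insert, Finset.mem_singleton] at hz hz'
    rcases hz with rfl | rfl <;> rcases hz' with h' | h'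
    · exact h.1 h'
    · exact h.2.1 h'
    · exact h.2.2.1 h'
    · exact h.2.2.2 h'
  refine splits_of_parts S hpos
    {({x1, y1} : Finset E), ({x2, y2} : Finset E), ({x3, y3} : Finset E)} ?_ ?_ k ?_
  · intro q hq
    simp only [Finset.mem_insert, Finset.mem_singleton] at hq
    rcases hq with rfl | rfl | rfl
    · exact sub _ _ s1
    · exact sub _ _ s2
    · exact sub _ _ s3
  · intro q hq
    simp only [Finset.mem_insert, Finset.mem_singleton] at hq
    rcases hq with rfl | rfl | rfl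
    · rw [Finset.coe_pair, Metric.diam_pair]
      exact s1.2.2.2
    · rw [Finset.coe_pair, Metric.diam_pair]
      exact s2.2.2.2
    · rw [Finset.coe_pair, Metric.diam_pair]
      exact s3.2.2.2
  · have hQ : ({({x1, y1} : Finset E), ({x2, y2} : Finset E), ({x3, y3} : Finset E)} :
        Finset (Finset E)).card ≤ 3 := Finset.card_le_three
    have hbu : ({({x1, y1} : Finset E), ({x2, y2} : Finset E), ({x3, y3} : Finset E)} :
        Finset (Finset E)).biUnion id =
        ({x1, y1} : Finset E) ∪ (({x2, y2} : Finset E) ∪ {x3, y3}) := by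
      rw [Finset.biUnion_insert, Finset.biUnion_insert, Finset.singleton_biUnion]
      rfl
    rw [hbu]
    have hd : Disjoint ({x1, y1} : Finset E) (({x2, y2} : Finset E) ∪ {x3, y3}) :=
      Finset.disjoint_union_right.mpr ⟨disj _ _ _ _ c12, disj _ _ _ _ c13⟩
    have hu : (({x1, y1} : Finset E) ∪ (({x2, y2} : Finset E) ∪ {x3, y3})).card = 6 := by
      rw [Finset.card_union_of_disjoint hd, Finset.card_union_of_disjoint (disj _ _ _ _ c23),
        Finset.card_pair s1.2.2.1, Finset.card_pair s2.2.2.1, Finset.card_pair s3.2.2.1]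
    have hsub : ({x1, y1} : Finset E) ∪ (({x2, y2} : Finset E) ∪ {x3, y3}) ⊆ S :=
      Finset.union_subset (sub _ _ s1) (Finset.union_subset (sub _ _ s2) (sub _ _ s3))
    have h1 := Finset.card_sdiff_add_card_eq_card hsub
    omega

theorem tri_pair {E : Type*} [MetricSpace E] [DecidableEq E] (S : Finset E) (k : ℕ)
    (t1 t2 t3 p1 p2 : E) (s12 : Short S t1 t2) (s13 : Short S t1 t3) (s23 : Short S t2 t3)
    (sp : Short S p1 p2)
    (c : t1 ≠ p1 ∧ t1 ≠ p2 ∧ t2 ≠ p1 ∧ t2 ≠ p2 ∧ t3 ≠ p1 ∧ t3 ≠ p2)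
    (hcard : S.card ≤ k + 3) : Splits (S : Set E) k := by
  classical
  have hpos : 0 < Metric.diam (S : Set E) := lt_of_le_of_lt dist_nonneg sp.2.2.2
  have hsubT : ({t1, t2, t3} : Finset E) ⊆ S := by
    intro w hw
    simp only [Finset.mem_insert, Finset.mem_singleton] at hw
    rcases hw with rfl | rfl | rfl
    · exact s12.1
    · exact s12.2.1
    · exact s13.2.1
  have hsubP : ({p1, p2} : Finset E) ⊆ S := by
    intro w hw
    simp only [Finset.mem_insert, Finset.mem_singleton] at hw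
    rcases hw with rfl | rfl
    · exact sp.1
    · exact sp.2.1
  have hdisj : Disjoint ({t1, t2, t3} : Finset E) {p1, p2} := by
    rw [Finset.disjoint_left]
    intro z hz hz'
    simp only [Finset.mem_insert, Finset.mem_singleton] at hz hz'
    rcases hz with rfl | rfl | rfl <;> rcases hz' with h' | h'
    · exact c.1 h'
    · exact c.2.1 h'
    · exact c.2.2.1 h'
    · exact c.2.2.2.1 h'
    · exact c.2.2.2.2.1 h'
    · exact c.2.2.2.2.2 h'
  refine splits_of_parts S hpos {({t1, t2, t3} : Finset E), ({p1, p2} : Finset E)} ?_ ?_ k ?_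
  · intro q hq
    simp only [Finset.mem_insert, Finset.mem_singleton] at hq
    rcases hq with rfl | rfl
    · exact hsubT
    · exact hsubP
  · intro q hq
    simp only [Finset.mem_insert, Finset.mem_singleton] at hq
    rcases hq with rfl | rfl
    · rw [Finset.coe_insert, Finset.coe_pair, Metric.diam_triple]
      exact max_lt (max_lt s12.2.2.2 s13.2.2.2) s23.2.2.2
    · rw [Finset.coe_pair, Metric.diam_pair]
      exact sp.2.2.2
  · have hQ : ({({t1, t2, t3} : Finset E), ({p1, p2} : Finset E)} :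
        Finset (Finset E)).card ≤ 2 := Finset.card_le_two
    have hbu : ({({t1, t2, t3} : Finset E), ({p1, p2} : Finset E)} :
        Finset (Finset E)).biUnion id = ({t1, t2, t3} : Finset E) ∪ {p1, p2} := by
      rw [Finset.biUnion_insert, Finset.singleton_biUnion]
      rfl
    rw [hbu]
    have h3 : ({t1, t2, t3} : Finset E).card = 3 :=
      Finset.card_eq_three.mpr ⟨t1, t2, t3, s12.2.2.1, s13.2.2.1, s23.2.2.1, rfl⟩
    have hu : (({t1, t2, t3} : Finset E) ∪ {p1, p2}).card = 5 := by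
      rw [Finset.card_union_of_disjoint hdisj, Finset.card_pair sp.2.2.1, h3]
    have hsub : ({t1, t2, t3} : Finset E) ∪ {p1, p2} ⊆ S := Finset.union_subset hsubT hsubP
    have h1 := Finset.card_sdiff_add_card_eq_card hsub
    omega

/-- A finite set `S` of at most `k + 3` points of `ℝ^d`, where `k ≥ d + 1`, is the union of at
most `k` subsets of smaller diameter. -/
theorem few_points_four (d k : ℕ) (hk : d + 1 ≤ k) (S : Finset (EuclideanSpace ℝ (Fin d)))
    (hcard : S.card ≤ k + 3)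
    (hpos : 0 < Metric.diam (S : Set (EuclideanSpace ℝ (Fin d)))) :
    Splits (S : Set (EuclideanSpace ℝ (Fin d))) k := by
  classical
  by_cases h0 : S.card ≤ k + 2
  · exact few_points d k hk S h0 hpos
  have hle : ∀ x ∈ S, ∀ y ∈ S,
      dist x y ≤ Metric.diam (S : Set (EuclideanSpace ℝ (Fin d))) :=
    fun x hx y hy => Metric.dist_le_diam_of_mem S.finite_toSet.isBounded
      (Finset.mem_coe.mpr hx) (Finset.mem_coe.mpr hy)
  have hc2 : ∀ p q : EuclideanSpace ℝ (Fin d), p ∈ S → d + 2 ≤ ((S.erase p).erase q).card := by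
    intro p q hp
    have h1 := Finset.card_erase_of_mem hp
    have h2 : (S.erase p).card - 1 ≤ ((S.erase p).erase q).card :=
      Finset.pred_card_le_card_erase
    omega
  have hle2 : ∀ p q : EuclideanSpace ℝ (Fin d), ∀ u ∈ (S.erase p).erase q,
      ∀ v ∈ (S.erase p).erase q,
      dist u v ≤ Metric.diam (S : Set (EuclideanSpace ℝ (Fin d))) :=
    fun p q u hu v hv => hle u (Finset.mem_of_mem_erase (Finset.mem_of_mem_erase hu)) v
      (Finset.mem_of_mem_erase (Finset.mem_of_mem_erase hv))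
  have F1 : ∀ p q : EuclideanSpace ℝ (Fin d), p ∈ S →
      ∃ u v, Short S u v ∧ u ≠ p ∧ u ≠ q ∧ v ≠ p ∧ v ≠ q := by
    intro p q hp
    obtain ⟨u, hu, v, hv, huv, hd⟩ :=
      exists_short_pair d ((S.erase p).erase q) (hc2 p q hp) _ (hle2 p q)
    have hu1 := Finset.mem_erase.mp hu
    have hu2 := Finset.mem_erase.mp hu1.2
    have hv1 := Finset.mem_erase.mp hv
    have hv2 := Finset.mem_erase.mp hv1.2
    exact ⟨u, v, ⟨hu2.2, hv2.2, huv, hd⟩, hu2.1, hu1.1, hv2.1, hv1.1⟩
  have F2 : ∀ p q x y : EuclideanSpace ℝ (Fin d), p ∈ S → Short S x y →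
      x ≠ p → x ≠ q → y ≠ p → y ≠ q →
      ∃ u v, Short S u v ∧ u ≠ p ∧ u ≠ q ∧ v ≠ p ∧ v ≠ q ∧
        ¬ (u = x ∧ v = y) ∧ ¬ (u = y ∧ v = x) := by
    intro p q x y hp sxy hxp hxq hyp hyq
    have hxm : x ∈ (S.erase p).erase q :=
      Finset.mem_erase.mpr ⟨hxq, Finset.mem_erase.mpr ⟨hxp, sxy.1⟩⟩
    have hym : y ∈ (S.erase p).erase q :=
      Finset.mem_erase.mpr ⟨hyq, Finset.mem_erase.mpr ⟨hyp, sxy.2.1⟩⟩
    obtain ⟨u, hu, v, hv, huv, hd, hn1, hn2⟩ :=
      exists_other_short_pair d ((S.erase p).erase q) (hc2 p q hp) _ (hle2 p q) x y hxm hym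
        sxy.2.2.1
    have hu1 := Finset.mem_erase.mp hu
    have hu2 := Finset.mem_erase.mp hu1.2
    have hv1 := Finset.mem_erase.mp hv
    have hv2 := Finset.mem_erase.mp hv1.2
    exact ⟨u, v, ⟨hu2.2, hv2.2, huv, hd⟩, hu2.1, hu1.1, hv2.1, hv1.1, hn1, hn2⟩
  obtain ⟨x, hxS, y, hyS, hxy, hdxy⟩ := exists_short_pair d S (by omega) _ hle
  have sxy : Short S x y := ⟨hxS, hyS, hxy, hdxy⟩
  obtain ⟨a, b, sab, hax, hay, hbx, hby⟩ := F1 x y hxS
  obtain ⟨a2, b2, sab2, ha2x, ha2y, hb2x, hb2y, hn1, hn2⟩ := F2 x y a b hxS sab hax hay hbx hby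
  have key : (a ≠ a2 ∧ a ≠ b2 ∧ b ≠ a2 ∧ b ≠ b2) ∨
      ∃ c e1 e2, Short S c e1 ∧ Short S c e2 ∧ e1 ≠ e2 ∧ c ≠ x ∧ c ≠ y ∧ e1 ≠ x ∧ e1 ≠ y ∧
        e2 ≠ x ∧ e2 ≠ y := by
    by_cases h1 : a2 = a
    · right
      refine ⟨a, b, b2, sab, ?_, ?_, hax, hay, hbx, hby, hb2x, hb2y⟩
      · rw [← h1]
        exact sab2
      · intro h
        exact hn1 ⟨h1, h.symm⟩
    · by_cases h2 : a2 = b
      · right
        refine ⟨b, a, b2, short_symm sab, ?_, ?_, hbx, hby, hax, hay, hb2x, hb2y⟩
        · rw [← h2]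
          exact sab2
        · intro h
          exact hn2 ⟨h2, h.symm⟩
      · by_cases h3 : b2 = a
        · right
          refine ⟨a, b, a2, sab, ?_, ?_, hax, hay, hbx, hby, ha2x, ha2y⟩
          · rw [← h3]
            exact short_symm sab2
          · intro h
            exact h2 h.symm
        · by_cases h4 : b2 = b
          · right
            refine ⟨b, a, a2, short_symm sab, ?_, ?_, hbx, hby, hax, hay, ha2x, ha2y⟩
            · rw [← h4]
              exact short_symm sab2
            · intro h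
              exact h1 h.symm
          · left
            exact ⟨fun h => h1 h.symm, fun h => h3 h.symm, fun h => h2 h.symm,
              fun h => h4 h.symm⟩
  rcases key with hdis | ⟨c, e1, e2, sce1, sce2, he12, hcx, hcy, he1x, he1y, he2x, he2y⟩
  · exact three_pairs S k x y a b a2 b2 sxy sab sab2
      ⟨Ne.symm hax, Ne.symm hbx, Ne.symm hay, Ne.symm hby⟩
      ⟨Ne.symm ha2x, Ne.symm hb2x, Ne.symm ha2y, Ne.symm hb2y⟩ hdis hcard
  have hcS : c ∈ S := sce1.1
  have G : ∀ x' y' : EuclideanSpace ℝ (Fin d), Short S x' y' → c ≠ x' → c ≠ y' →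
      e1 ≠ x' → e1 ≠ y' → e2 ≠ x' → e2 ≠ y' →
      ∀ u v, Short S u v → u ≠ c → u ≠ x' → u ≠ y' → v ≠ c → v ≠ x' → v ≠ y' →
      Splits (S : Set (EuclideanSpace ℝ (Fin d))) k := by
    intro x' y' sxy' hcx' hcy' he1x' he1y' he2x' he2y' u v suv huc hux huy hvc hvx hvy
    by_cases h1 : e1 ≠ u ∧ e1 ≠ v
    · exact three_pairs S k x' y' c e1 u v sxy' sce1 suv
        ⟨Ne.symm hcx', Ne.symm he1x', Ne.symm hcy', Ne.symm he1y'⟩
        ⟨Ne.symm hux, Ne.symm hvx, Ne.symm huy, Ne.symm hvy⟩
        ⟨Ne.symm huc, Ne.symm hvc, h1.1, h1.2⟩ hcard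
    · by_cases h2 : e2 ≠ u ∧ e2 ≠ v
      · exact three_pairs S k x' y' c e2 u v sxy' sce2 suv
          ⟨Ne.symm hcx', Ne.symm he2x', Ne.symm hcy', Ne.symm he2y'⟩
          ⟨Ne.symm hux, Ne.symm hvx, Ne.symm huy, Ne.symm hvy⟩
          ⟨Ne.symm huc, Ne.symm hvc, h2.1, h2.2⟩ hcard
      · have h1' : e1 = u ∨ e1 = v := by
          by_contra hh
          exact h1 ⟨fun h => hh (Or.inl h), fun h => hh (Or.inr h)⟩
        have h2' : e2 = u ∨ e2 = v := by
          by_contra hh
          exact h2 ⟨fun h => hh (Or.inl h), fun h => hh (Or.inr h)⟩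
        have s12 : Short S e1 e2 := by
          rcases h1' with h1' | h1' <;> rcases h2' with h2' | h2'
          · exact absurd (h1'.trans h2'.symm) he12
          · rw [h1', h2']
            exact suv
          · rw [h1', h2']
            exact short_symm suv
          · exact absurd (h1'.trans h2'.symm) he12
        exact tri_pair S k c e1 e2 x' y' sce1 sce2 s12 sxy'
          ⟨hcx', hcy', he1x', he1y', he2x', he2y'⟩ hcard
  have step : ∀ x' y' : EuclideanSpace ℝ (Fin d), Short S x' y' → c ≠ x' → c ≠ y' →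
      e1 ≠ x' → e1 ≠ y' → e2 ≠ x' → e2 ≠ y' →
      Splits (S : Set (EuclideanSpace ℝ (Fin d))) k ∨
      ∃ u u', u ≠ u' ∧ Short S y' u ∧ Short S y' u' ∧ u ≠ c ∧ u ≠ x' ∧ u' ≠ c ∧ u' ≠ x' := by
    intro x' y' sxy' hcx' hcy' he1x' he1y' he2x' he2y'
    have G' := G x' y' sxy' hcx' hcy' he1x' he1y' he2x' he2y'
    obtain ⟨u1, v1, s1, hu1c, hu1x, hv1c, hv1x⟩ := F1 c x' hcS
    by_cases hy1 : u1 ≠ y' ∧ v1 ≠ y'
    · exact Or.inl (G' u1 v1 s1 hu1c hu1x hy1.1 hv1c hv1x hy1.2)
    have ex1 : ∃ u, Short S y' u ∧ u ≠ c ∧ u ≠ x' := by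
      by_cases h : u1 = y'
      · refine ⟨v1, ?_, hv1c, hv1x⟩
        rw [← h]
        exact s1
      · have h' : v1 = y' := by
          by_contra hh
          exact hy1 ⟨h, hh⟩
        refine ⟨u1, ?_, hu1c, hu1x⟩
        rw [← h']
        exact short_symm s1
    obtain ⟨u, syu, huc, hux⟩ := ex1
    obtain ⟨u2, v2, s2, hu2c, hu2x, hv2c, hv2x, hm1, hm2⟩ :=
      F2 c x' y' u hcS syu (Ne.symm hcy') sxy'.2.2.1.symm huc hux
    by_cases hy2 : u2 ≠ y' ∧ v2 ≠ y'
    · exact Or.inl (G' u2 v2 s2 hu2c hu2x hy2.1 hv2c hv2x hy2.2)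
    right
    by_cases h : u2 = y'
    · refine ⟨u, v2, ?_, syu, ?_, huc, hux, hv2c, hv2x⟩
      · intro huv
        exact hm1 ⟨h, huv.symm⟩
      · rw [← h]
        exact s2
    · have h' : v2 = y' := by
        by_contra hh
        exact hy2 ⟨h, hh⟩
      refine ⟨u, u2, ?_, syu, ?_, huc, hux, hu2c, hu2x⟩
      · intro huv
        exact hm2 ⟨huv.symm, h'⟩
      · rw [← h']
        exact short_symm s2
  rcases step x y sxy hcx hcy he1x he1y he2x he2y with hdone |
    ⟨u, u', huu', syu, syu', huc, hux, hu'c, hu'x⟩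
  · exact hdone
  rcases step y x (short_symm sxy) hcy hcx he1y he1x he2y he2x with hdone |
    ⟨w, w', hww', sxw, sxw', hwc, hwy, hw'c, hw'y⟩
  · exact hdone
  have build : ∀ β ω υ : EuclideanSpace ℝ (Fin d), Short S c β → Short S x ω → Short S y υ →
      β ≠ x → β ≠ y → ω ≠ c → ω ≠ y → υ ≠ c → υ ≠ x → β ≠ ω → β ≠ υ → ω ≠ υ →
      Splits (S : Set (EuclideanSpace ℝ (Fin d))) k := by
    intro β ω υ sβ sω sυ hβx hβy hωc hωy hυc hυx hβω hβυ hωυ
    exact three_pairs S k c β x ω y υ sβ sω sυ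
      ⟨hcx, Ne.symm hωc, hβx, hβω⟩ ⟨hcy, Ne.symm hυc, hβy, hβυ⟩
      ⟨hxy, Ne.symm hυx, hωy, hωυ⟩ hcard
  have caseA : ∀ ω : EuclideanSpace ℝ (Fin d), Short S x ω → ω ≠ c → ω ≠ y → ω ≠ e1 →
      ω ≠ e2 → Splits (S : Set (EuclideanSpace ℝ (Fin d))) k := by
    intro ω sω hωc hωy hω1 hω2
    by_cases h : u = ω
    · have hu'ω : u' ≠ ω := fun h' => huu' (h.trans h'.symm)
      by_cases hb : e1 = u'
      · exact build e2 ω u' sce2 sω syu' he2x he2y hωc hωy hu'c hu'x (Ne.symm hω2)
          (fun h' => he12 (hb.trans h'.symm)) (Ne.symm hu'ω)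
      · exact build e1 ω u' sce1 sω syu' he1x he1y hωc hωy hu'c hu'x (Ne.symm hω1) hb
          (Ne.symm hu'ω)
    · by_cases hb : e1 = u
      · exact build e2 ω u sce2 sω syu he2x he2y hωc hωy huc hux (Ne.symm hω2)
          (fun h' => he12 (hb.trans h'.symm)) (Ne.symm h)
      · exact build e1 ω u sce1 sω syu he1x he1y hωc hωy huc hux (Ne.symm hω1) hb (Ne.symm h)
  have caseB : ∀ υ : EuclideanSpace ℝ (Fin d), Short S y υ → υ ≠ c → υ ≠ x → υ ≠ e1 →
      υ ≠ e2 → Splits (S : Set (EuclideanSpace ℝ (Fin d))) k := by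
    intro υ sυ hυc hυx hυ1 hυ2
    by_cases h : w = υ
    · have hw'υ : w' ≠ υ := fun h' => hww' (h.trans h'.symm)
      by_cases hb : e1 = w'
      · exact build e2 w' υ sce2 sxw' sυ he2x he2y hw'c hw'y hυc hυx
          (fun h' => he12 (hb.trans h'.symm)) (Ne.symm hυ2) hw'υ
      · exact build e1 w' υ sce1 sxw' sυ he1x he1y hw'c hw'y hυc hυx hb (Ne.symm hυ1) hw'υ
    · by_cases hb : e1 = w
      · exact build e2 w υ sce2 sxw sυ he2x he2y hwc hwy hυc hυx
          (fun h' => he12 (hb.trans h'.symm)) (Ne.symm hυ2) h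
      · exact build e1 w υ sce1 sxw sυ he1x he1y hwc hwy hυc hυx hb (Ne.symm hυ1) h
  by_cases hw1 : w ≠ e1 ∧ w ≠ e2
  · exact caseA w sxw hwc hwy hw1.1 hw1.2
  by_cases hw2 : w' ≠ e1 ∧ w' ≠ e2
  · exact caseA w' sxw' hw'c hw'y hw2.1 hw2.2
  by_cases hu1 : u ≠ e1 ∧ u ≠ e2
  · exact caseB u syu huc hux hu1.1 hu1.2
  by_cases hu2 : u' ≠ e1 ∧ u' ≠ e2
  · exact caseB u' syu' hu'c hu'x hu2.1 hu2.2
  have hxe1 : Short S x e1 := by
    by_cases h : w = e1
    · rw [← h]
      exact sxw
    · have hwe2 : w = e2 := by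
        by_contra hh
        exact hw1 ⟨h, hh⟩
      have hw'e1 : w' = e1 := by
        by_contra hh
        exact hw2 ⟨hh, fun h' => hww' (hwe2.trans h'.symm)⟩
      rw [← hw'e1]
      exact sxw'
  have hye1 : Short S y e1 := by
    by_cases h : u = e1
    · rw [← h]
      exact syu
    · have hue2 : u = e2 := by
        by_contra hh
        exact hu1 ⟨h, hh⟩
      have hu'e1 : u' = e1 := by
        by_contra hh
        exact hu2 ⟨hh, fun h' => huu' (hue2.trans h'.symm)⟩
      rw [← hu'e1]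
      exact syu'
  exact tri_pair S k x y e1 c e2 sxy hxe1 hye1 sce2
    ⟨Ne.symm hcx, Ne.symm he2x, Ne.symm hcy, Ne.symm he2y, sce1.2.2.1.symm, he12⟩ hcard

/-- **Borsuk's conjecture for sets of at most d + 4 points.** (1) Every set of at most `d + 4`
points of `ℝ^d` with positive diameter is the union of at most `d + 1` subsets of smaller
diameter, in every dimension `d`. (2) More generally a set of at most `k + 3` points of `ℝ^d`,
`k ≥ d + 1`, is the union of at most `k` subsets of smaller diameter. (3) The geometric input: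
two different points at distance `D` from each of `d` points of `ℝ^d` that are pairwise at
distance `D` are at distance greater than `D` from each other. -/
theorem result :
    (∀ (d : ℕ) (S : Finset (EuclideanSpace ℝ (Fin d))), S.card ≤ d + 4 →
      0 < Metric.diam (S : Set (EuclideanSpace ℝ (Fin d))) →
      Splits (S : Set (EuclideanSpace ℝ (Fin d))) (d + 1)) ∧
    (∀ (d k : ℕ) (S : Finset (EuclideanSpace ℝ (Fin d))), d + 1 ≤ k → S.card ≤ k + 3 →
      0 < Metric.diam (S : Set (EuclideanSpace ℝ (Fin d))) →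
      Splits (S : Set (EuclideanSpace ℝ (Fin d))) k) ∧
    (∀ (d : ℕ) (p : Fin d → EuclideanSpace ℝ (Fin d)) (a b : EuclideanSpace ℝ (Fin d)) (D : ℝ),
      0 < D → (∀ i j, i ≠ j → dist (p i) (p j) = D) → (∀ i, dist (p i) a = D) →
      (∀ i, dist (p i) b = D) → a ≠ b → D < dist a b) := by
  refine ⟨fun d S hcard hpos => few_points_four d (d + 1) le_rfl S hcard hpos,
    fun d k S hk hcard hpos => few_points_four d k hk S hcard hpos, ?_⟩
  intro d p a b D hD hp ha hb hab
  by_contra hle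
  exact no_almost_equilateral d p a b D hD hp ha hb hab (not_lt.mp hle)

end Vale.Agent.Results.P052.FewPointsFour
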